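import Vale.Agent.P287D.Pc.Num
import Vale.Agent.P287D.Zc.CoC1
import Vale.Agent.P287D.Zc.CoPsC
import Vale.Agent.P287D.Zc.CoHo

/-!
# P287D, block PIC: the theorem of the base
-/

set_option linter.all false

open Set
open Vale.Agent.P297 (Place)
open Vale.Agent.P277Z Vale.Agent.P277Z.FI
open Vale.Agent.P285.H281.FD (Bd)
open Vale.Agent.P281Z (Mf)
open Vale.Agent.P285N (geo geo_lb geo_sec geo_proj)

noncomputable section

namespace Vale.Agent.P287D

namespace Pc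

export Vale.Agent.P277Z (Div)

open Ba hiding Div

variable {n : ℕ} {K : Type} [Field K] [Algebra ℂ K]

/-- first Chern classes and Kähler classes -/
structure Ch (G : Geo n 0) {H : Type} [AddCommGroup H] [Module ℝ H] (c : Bd G.W → H) (C : Set H)
    (U : Submodule ℝ H) : Prop where
  mul : ∀ L L', G.LB L → G.LB L' → c (L.mul L') = c L + c L'
  triv : ∀ L s, G.LB L → G.Sec L s → (∀ x ∈ G.F, ∀ i, x ∈ L.U i → s i x ≠ 0) → c L = 0
  pos : ∀ L, G.PosB L → c L ∈ C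
  kp : ∀ L, G.LB L → c L ∈ C → G.PosB L
  add : ∀ a ∈ C, ∀ b ∈ C, a + b ∈ C
  smul : ∀ a ∈ C, ∀ r : ℝ, 0 < r → r • a ∈ C
  mem : ∀ L, G.LB L → c L ∈ U
  opn : ∀ w ∈ C, ∀ a ∈ U, ∃ r : ℝ, 0 < r ∧ r • w + a ∈ C

theorem posB_iff {W : Mf n} [ConnectedSpace W.X] {L : Bd W.X} :
    (geo W).PosB L ↔ P285.H281.FD.IsLB n L ∧ P281Z.Pos n L :=
  ⟨fun ⟨ψ, a, b, c⟩ => ⟨geo_lb.1 a, ψ, ⟨fun i e x he hi => (b i x hi e he).1, c⟩,
    fun i e x he hi => (b i x hi e he).2⟩, fun ⟨a, ψ, b, c⟩ =>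
    ⟨ψ, geo_lb.2 a, fun i x hi e he => ⟨b.smooth i e x he hi, c i e x he hi⟩, b.change⟩⟩

open P280Z P280Z.Co in
theorem exists_ch (W : Mf n) [ConnectedSpace W.X] (h : (geo W).Proj) :
    ∃ (H : Type) (_ : AddCommGroup H) (_ : Module ℝ H) (_ : Module.Finite ℝ H)
      (c : Bd W.X → H) (C : Set H) (U : Submodule ℝ H), Ch (geo W) c C U := by
  have k := c1_of c1e
  obtain ⟨L, hL⟩ := (geo W).proj_iff.1 h
  refine ⟨ct.H W, inferInstance, inferInstance,
    ho.fin W ((po_ct.kah W).2 ⟨_, k.pos W L (posB_iff.1 hL).1 (posB_iff.1 hL).2⟩), ct.c1 W,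
    {w | ct.Kc W w}, (ct.Ty W).toSubmodule ⊓ LinearMap.ker (ct.pr W 1 - LinearMap.id),
    fun L L' a b => k.mul W L L' (geo_lb.1 a) (geo_lb.1 b),
    fun L s a b c => k.triv W L s (geo_lb.1 a) (geo_sec.1 b) fun x => c x trivial,
    fun L a => k.pos W L (posB_iff.1 a).1 (posB_iff.1 a).2,
    fun L a b => posB_iff.2 ⟨geo_lb.1 a, kp_of c1e ddb W L (geo_lb.1 a) b⟩,
    fun a x b y => po_ct.mono (po_ct.add x y) fun _ => inf_le_left,
    fun a x r hr => po_ct.smul r hr x,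
    fun L a => ⟨tp_of.c1 W L (geo_lb.1 a),
      LinearMap.mem_ker.2 (sub_eq_zero.2 (k.deg W L))⟩,
    fun w x a y => po_ct.opn x a y.1 (sub_eq_zero.1 (LinearMap.mem_ker.1 y.2))⟩

section cls

variable {M : Mdl n 0 K} {H : Type} [AddCommGroup H] [Module ℝ H] {c : Bd M.W → H} {C : Set H}
  {U : Submodule ℝ H}

theorem Ch.zero (h : Ch M.toGeo c C U) (hM : M.Proj) {L : Bd M.W} {s : L.ι → M.W → ℂ}
    (r : M.Rep L 0 s) : c L = 0 := by
  have b := lbdA n 0 K M hM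
  obtain ⟨σ, a1, a2⟩ := b.sec L 0 s 1 r (.inr fun P _ => by simp)
  exact h.triv L σ r.lb a1 fun x hx i hi =>
    (b.nz L 0 s 1 σ ⟨x, hx⟩ i r a1 a2 hi).2 ⟨one_ne_zero, fun P _ => by simp⟩

theorem Ch.lin (h : Ch M.toGeo c C U) (hM : M.Proj) : ∃ Φ : Div K →ₗ[ℝ] H, (∀ D, Φ D ∈ U) ∧
    ∀ D L s, IsInt D → M.Rep L D s → Φ D = c L := by
  classical
  have b := lbdA n 0 K M hM
  have neg : ∀ D : Div K, IsInt D → IsInt (-D) := fun D a P =>
    let ⟨k, e⟩ := a P; ⟨-k, by simp [e]⟩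
  have inv : ∀ D L s L' s', M.Rep L D s → M.Rep L' (-D) s' → c L + c L' = 0 :=
    fun D L s L' s' x y => by
      have := b.mul L D s L' _ s' x y
      rw [add_neg_cancel] at this
      rw [← h.mul L L' x.lb y.lb, h.zero hM this]
  have uq : ∀ D L s L' s', IsInt D → M.Rep L D s → M.Rep L' D s' → c L = c L' :=
    fun D L s L' s' a x y =>
      let ⟨N, t, z⟩ := b.ex _ (neg D a)
      add_right_cancel ((inv D L s N t x z).trans (inv D L' s' N t y z).symm)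
  have i1 : ∀ (P : Place K) (k : ℤ), IsInt (Finsupp.single P (k : ℝ)) := fun P k Q => by
    rw [Finsupp.single_apply]
    split_ifs
    exacts [⟨k, rfl⟩, ⟨0, by simp⟩]
  choose L s r using fun P : Place K => b.ex _ (i1 P 1)
  let Φ := Finsupp.linearCombination ℝ fun P => c (L P)
  let S : AddSubgroup (Div K) :=
    { carrier := {D | IsInt D ∧ ∃ N t, M.Rep N D t ∧ Φ D = c N}
      zero_mem' := ⟨fun _ => ⟨0, by simp⟩, let ⟨N, t, z⟩ := b.ex 0 fun _ => ⟨0, by simp⟩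
        ⟨N, t, z, (map_zero Φ).trans (h.zero hM z).symm⟩⟩
      add_mem' := fun ⟨a, N, t, x, e⟩ ⟨a', N', t', y, e'⟩ => ⟨FI.IsInt.add a a', _, _,
        b.mul _ _ _ _ _ _ x y, by rw [map_add, e, e', h.mul _ _ x.lb y.lb]⟩
      neg_mem' := fun {D} ⟨a, N, t, x, e⟩ => ⟨neg D a, let ⟨N', t', y⟩ := b.ex _ (neg D a)
        ⟨N', t', y, by rw [map_neg, e, neg_eq_of_add_eq_zero_right (inv D N t N' t' x y)]⟩⟩ }
  refine ⟨Φ, fun D => U.sum_mem fun P _ => U.smul_mem _ (h.mem _ (r P).lb), fun D N t a x => ?_⟩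
  have k : D ∈ S := by
    rw [← D.sum_single]
    refine S.sum_mem fun P _ => ?_
    obtain ⟨k, e⟩ := a P
    have : Finsupp.single P ((1 : ℤ) : ℝ) ∈ S := ⟨i1 P 1, _, _, r P, by simp [Φ]⟩
    simpa [e] using S.zsmul_mem this k
  obtain ⟨-, N', t', y, e⟩ := k
  exact e.trans (uq D _ _ _ _ a y x)

theorem Ch.near (h : Ch M.toGeo c C U) {w a : H} (hw : w ∈ C) (ha : a ∈ U) :
    ∃ ε : ℝ, 0 < ε ∧ ∀ t : ℝ, |t| < ε → w + t • a ∈ C := by
  have k : ∀ b ∈ U, ∃ ε : ℝ, 0 < ε ∧ ∀ t : ℝ, 0 < t → t < ε → w + t • b ∈ C := fun b hb => by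
    obtain ⟨r, r0, e⟩ := h.opn w hw b hb
    refine ⟨r⁻¹, inv_pos.2 r0, fun t x y => ?_⟩
    have := h.add _ (h.smul _ e t x) _ (h.smul _ hw (1 - t * r)
      (sub_pos.2 ((mul_inv_cancel₀ r0.ne') ▸ mul_comm r t ▸ mul_lt_mul_of_pos_left y r0)))
    exact (show _ = _ by module).subst (motive := (· ∈ C)) this
  obtain ⟨ε, e0, e⟩ := k a ha
  obtain ⟨δ, d0, d⟩ := k _ (neg_mem ha)
  refine ⟨min ε δ, lt_min e0 d0, fun t ht => ?_⟩
  obtain ⟨x, y⟩ := abs_lt.1 ht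
  rcases lt_trichotomy t 0 with z | rfl | z
  · simpa using d (-t) (neg_pos.2 z) ((neg_lt.1 x).trans_le (min_le_right _ _))
  · simpa using hw
  · exact e t z (y.trans_le (min_le_left _ _))

theorem Ch.amp (h : Ch M.toGeo c C U) (hM : M.Proj) {Φ : Div K →ₗ[ℝ] H} (h1 : ∀ D, Φ D ∈ U)
    (h2 : ∀ D L s, IsInt D → M.Rep L D s → Φ D = c L) (D : Div K) (hD : Φ D ∈ C) : M.Amp D := by
  classical
  have b := lbdA n 0 K M hM
  have p := hpos hM
  suffices k : ∀ (T : Finset (Place K)) (D : Div K), (∀ P ∉ T, ∃ q : ℚ, D P = q) → Φ D ∈ C →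
      M.Amp D from k D.support D (fun P a => ⟨0, by simpa using a⟩) hD
  intro T
  induction T using Finset.induction_on with
  | empty =>
    intro D a x
    obtain ⟨m, m0, e⟩ := rat_mul (D := D) fun P => a P (by simp)
    obtain ⟨L, s, r⟩ := b.ex _ e
    have m1 : (0 : ℝ) < m := by exact_mod_cast m0
    have := p.smul _ _ (inv_pos.2 m1) (b.amp L _ s r (h.kp L r.lb (by
      rw [← h2 _ L s e r, map_smul]; exact h.smul _ x _ m1)))
    rwa [inv_smul_smul₀ m1.ne'] at this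
  | insert P T _ ih =>
    intro D a x
    obtain ⟨ε, e0, e⟩ := h.near x (h1 (Finsupp.single P 1))
    have k : ∀ q : ℚ, |q - D P| < ε → M.Amp (D + ((q : ℝ) - D P) • Finsupp.single P (1 : ℝ)) :=
      fun q y => ih _ (fun Q z => by
        by_cases w : Q = P
        · exact ⟨q, by simp [w]⟩
        · simpa [Finsupp.single_apply, Ne.symm w] using a Q (by simp [w, z]))
        (by rw [map_add, map_smul]; exact e _ y)
    obtain ⟨q, q1, q2⟩ := exists_rat_btwn (sub_lt_self (D P) e0)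
    obtain ⟨r, r1, r2⟩ := exists_rat_btwn (lt_add_of_pos_right (D P) e0)
    have d : (0 : ℝ) < r - q := by linarith
    have := p.smul _ _ (inv_pos.2 d) (p.add _ _
      (p.smul _ _ (sub_pos.2 r1) (k q (abs_lt.2 ⟨by linarith, by linarith⟩)))
      (p.smul _ _ (sub_pos.2 q2) (k r (abs_lt.2 ⟨by linarith, by linarith⟩))))
    rwa [show ∀ a b : Div K, ((r : ℝ) - D P) • (a + ((q : ℝ) - D P) • b) +
      (D P - q) • (a + ((r : ℝ) - D P) • b) = ((r : ℝ) - q) • a from fun a b => by module,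
      inv_smul_smul₀ d.ne'] at this

theorem Ch.fin [Module.Finite ℝ H] (h : Ch M.toGeo c C U) (hM : M.Proj) :
    ∃ T : Set (Div K), T.Finite ∧ ∀ D, ∃ E ∈ Submodule.span ℝ T, Num (bar M (D - E)) := by
  obtain ⟨Φ, h1, h2⟩ := h.lin hM
  obtain ⟨A, -, a1, a2⟩ := (hpos hM).ex
  obtain ⟨L, s, r, l⟩ := (lbdA n 0 K M hM).pos A a1 a2
  have k : ∀ D, Φ D = 0 → Nef (bar M D) := fun D e => nef_bar hM (nef_lim hM (E := A)
    fun ε e0 B hB => (hpos hM).add _ _ (h.amp hM h1 h2 _ (by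
      rw [map_add, e, zero_add, map_smul, h2 A L s a1 r]; exact h.smul _ (h.pos L l) _ e0)) hB)
  obtain ⟨S, hS⟩ := IsNoetherian.noetherian (LinearMap.range Φ)
  obtain ⟨T, t1, t2⟩ := (S.finite_toSet.exists_subset_finite_image_eq (s := univ) (f := Φ)
    fun x hx => by simpa using hS.le (Submodule.subset_span hx)).imp fun _ a => a.2
  refine ⟨T, t1, fun D => ?_⟩
  have : Φ D ∈ (Submodule.span ℝ T).map Φ := by
    rw [Submodule.map_span, t2, hS]; exact ⟨D, rfl⟩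
  obtain ⟨E, x, y⟩ := this
  exact ⟨E, x, k _ (by rw [map_sub, y, sub_self]),
    map_neg (bar M) _ ▸ k _ (by rw [map_neg, map_sub, y, sub_self, neg_zero])⟩

end cls

/-- numerically trivial classes -/
def NumS (K : Type) [Field K] [Algebra ℂ K] : Submodule ℝ (BD K) where
  carrier := {β | Num β}
  zero_mem' := Num.zero
  add_mem' := Num.add
  smul_mem' c _ h := Num.smul h c

/-- **FTN.fin**: the theorem of the base -/
theorem fin (hK : FF K n) {Λ : BD K} (hΛ : Smp Λ) : ∃ T : Finset (BD K), (∀ β ∈ T, Dsc Λ β) ∧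
    ∀ β, Dsc Λ β → ∃ γ ∈ Submodule.span ℝ (T : Set (BD K)), Num (β - γ) := by
  obtain ⟨y, h1, h2⟩ := hK
  obtain ⟨W, _, hW, ⟨e⟩⟩ := P270L.Md.iso h1
  let M₀ : Mdl n 0 K := P270L.Md.tr (P285N.mdl (P285N.alg hW)) e
  have h₀ : M₀.Proj := geo_proj hW
  obtain ⟨H, _, _, _, c, C, U, h⟩ := exists_ch W (geo_proj hW)
  obtain ⟨T, t1, t2⟩ := Ch.fin (M := M₀) h h₀
  clear_value M₀
  obtain ⟨M, m, hM, hd⟩ := ds_ex hΛ.car M₀ h₀
  have f : (bar M₀ '' T ∪ (fun Q => bar M (Finsupp.single Q 1)) '' Exc M M₀).Finite :=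
    (t1.image _).union ((hbir h₀ hM m).fin.image _)
  have := FiniteDimensional.span_of_finite ℝ (f.image (NumS K).mkQ)
  have le : (Gs.dS hΛ).map (NumS K).mkQ ≤ Submodule.span ℝ ((NumS K).mkQ ''
      (bar M₀ '' T ∪ (fun Q => bar M (Finsupp.single Q 1)) '' Exc M M₀)) := by
    rintro _ ⟨β, hβ, rfl⟩
    obtain ⟨D, d1, rfl⟩ := hd.of_dsc hM hβ
    obtain ⟨E, e1, e2⟩ := t2 D
    have a : (NumS K).mkQ (bar M D) =
        (NumS K).mkQ (bar M₀ E + bar M (D - M₀.pull M D)) := (Submodule.Quotient.eq _).2 (by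
      rw [map_sub, bar_pull h₀ hM m]
      rw [map_sub] at e2
      exact (show _ = _ by abel).subst (motive := Num) e2)
    rw [a, ← Submodule.map_span]
    refine ⟨_, add_mem ?_ ?_, rfl⟩
    · exact Submodule.span_mono subset_union_left (Submodule.apply_mem_span_image_of_mem_span (bar M₀) e1)
    · rw [← (D - M₀.pull M D).sum_single, Finsupp.sum, map_sum]
      refine Submodule.sum_mem _ fun Q hQ => ?_
      rw [← mul_one ((D - M₀.pull M D) Q), ← smul_eq_mul, ← Finsupp.smul_single, map_smul]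
      exact Submodule.smul_mem _ _ (Submodule.subset_span (.inr ⟨Q,
        I.sub_pull_exc (hloc h₀) (hbir h₀ hM m) d1 hQ, rfl⟩))
  obtain ⟨S, hS⟩ := (Submodule.fg_iff_finiteDimensional _).2
    (Submodule.finiteDimensional_of_le le)
  obtain ⟨T', a, b, k⟩ := S.finite_toSet.exists_subset_finite_image_eq (s := Gs.dS hΛ)
    (f := (NumS K).mkQ) fun x hx => hS.le (Submodule.subset_span hx)
  refine ⟨b.toFinset, fun β x => a (b.mem_toFinset.1 x), fun β x => ?_⟩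
  have : (NumS K).mkQ β ∈ (Submodule.span ℝ T').map (NumS K).mkQ := by
    rw [Submodule.map_span, k, hS]; exact ⟨β, x, rfl⟩
  obtain ⟨γ, x, y⟩ := this
  exact ⟨γ, by rwa [b.coe_toFinset], (Submodule.Quotient.eq _).1 y.symm⟩

/-- numerically trivial classes are principal -/
def NP (K : Type) [Field K] [Algebra ℂ K] : Prop := ∀ β : BD K, Num β → β ∈ Prn K

theorem NP.pic (h : NP K) (hK : FF K n) {Λ : BD K} (hΛ : Smp Λ) : Module.Finite ℝ (Pic Λ) := by
  obtain ⟨T, -, t⟩ := fin hK hΛ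
  have := FiniteDimensional.span_of_finite ℝ (T.finite_toSet.image (Prn K).mkQ)
  refine Submodule.finiteDimensional_of_le (S₂ := Submodule.span ℝ ((Prn K).mkQ '' T))
    (Submodule.span_le.2 ?_)
  rintro _ ⟨β, hβ, rfl⟩
  obtain ⟨γ, a, b⟩ := t β hβ
  rw [← Submodule.map_span]
  exact ⟨γ, a, ((Submodule.Quotient.eq _).2 (h _ b)).symm⟩

end Pc

/-- **FTN** -/
theorem ftn_of (hR : RES) : FTN where
  fin _ _ _ _ hK _ h := Pc.fin hK h
  num _ _ _ _ hK h _ a := Pc.num hR hK h a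
  pic _ _ _ _ hK h _ a := Pc.NP.pic (fun _ b => Pc.num hR hK h b) hK a

end Vale.Agent.P287D
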