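import Vale.Agent.P287D.Fg.Fgu
import Vale.Agent.P287D.Ba.Pos

/-!
# P287D, block PIC: non-vanishing; numerically trivial classes on fields of Fano type
-/

set_option linter.all false

open Set
open Vale.Agent.P297 (Place)
open Vale.Agent.P277Z Vale.Agent.P277Z.FI

noncomputable section

namespace Vale.Agent.P287D.Pc

open Ba Ba.Fg

variable {n : ℕ} {K : Type} [Field K] [Algebra ℂ K] {Λ Γ D β : BD K}

open F5 I in
theorem nvA (n : ℕ) : NV (n + 1) := by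
  have t := th tb _ (arA _) (t43m tb _ (arA _) (thr n))
  exact nv_of tb n (nvr tb _ (cpA _) (lrA _) t) (nv1 tb n (ptm tb n) (lrA _) t)
    (c2 tb n frac (F5.cnt tb btA exsA degA drsA cpA n) (degA n) (dnnA n) (dposA n) (arA _) (cpA _))
    (d1A n) (sho tb _ (lrA _) (ppA _) (constA _) (cpA _))

/-- non-vanishing on the model `V Λ` -/
theorem nv (hK : FF K (n + 1)) (hΛ : Smp Λ) (bΛ : Big Λ) (hΓ : Γ ∈ Car K) (hk : Klt (n + 1) Γ)
    (hb : Bdy n Λ Γ) (h1 : Nef (D - Γ)) (h2 : Big (D - Γ)) (h3 : Psef D) :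
    ∃ Z ∈ Prn K, ∀ P, On n Λ P → 0 ≤ (D + Z) P := by
  have hD : D ∈ Car K := by simpa using add_mem h1.car hΓ
  obtain ⟨M, U, E, W, hM, fU, sU, kU, hE, hW⟩ := nbF hK (ι := Unit) (fun _ => ⟨h1, h2⟩)
    (β := ![Λ, Γ, D]) (fun i => by fin_cases i; exacts [hΛ.car, hΓ, hD])
  have eΛ : Λ = bar M (W 0) := (hW 0).2.1
  have eG : Γ = bar M (W 1) := (hW 1).2.1
  have eD : D = bar M (W 2) := (hW 2).2.1
  obtain ⟨d, d0, B, b1, b2, b3⟩ := adj (X := W 2 - W 1) hM (hW 1).1 (dv_sub (hW 2).1 (hW 1).1) kU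
    (hW 1).2.2.1 (hE ()).2 (eG ▸ hk) (by rw [map_sub, ← eG, ← eD]; exact (hE ()).1) le_rfl
  rw [add_sub_cancel, one_smul, one_smul] at b3
  have dF : M.Dv (up (W 1 - KM M)) := dv_iff.2 fun Q p => up_zero (by
    simp [dv_iff.1 (hW 1).1 Q p, dv_iff.1 (KM_dv hM) Q p])
  have dL := FI.dv_smul (dv_add (hW 2).1 dF) d⁻¹
  have k := nvA n 0 K M hM _ _ _ U ⟨KM_isCan hM, fU, sU⟩ ⟨b1, b2⟩ dL b3 ((psef_bar hM dL).1 (by
    rw [map_smul, map_add, ← eD]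
    exact (h3.mono (le_add_of_nonneg_right (bar_nonneg hM (up_nonneg _)))).smul
      (inv_pos.2 d0).le))
  have k' := eff_of hM k
  rw [map_smul, map_add, ← eD] at k'
  obtain ⟨Z, z1, z2⟩ := eff_iff.1 (k'.of_smul (inv_pos.2 d0))
  refine ⟨Z, z1, fun P hP => ?_⟩
  have p := pr_of_on hM (eΛ ▸ hP)
  have a := hb P hP
  rw [dsc, Pi.sub_apply, KM_pr hM p, eG, bar_pr hM p] at a
  have := z2 P
  rwa [Pi.add_apply, Pi.add_apply, bar_pr hM p, up_zero (sub_nonneg.2 (sub_nonpos.1 a)),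
    add_zero] at this

/-- non-vanishing -/
theorem nv_eff (hR : RES) (hK : FF K (n + 1)) (hΛ : Smp Λ) (bΛ : Big Λ) (hΓ : Γ ∈ Car K)
    (hk : Klt (n + 1) Γ) (hb : Bdy n Λ Γ) (h1 : Nef (D - Γ)) (h2 : Big (D - Γ)) (h3 : Psef D)
    (h4 : Dsc Λ D) : Eff D :=
  let ⟨Z, a, b⟩ := nv hK hΛ bΛ hΓ hk hb h1 h2 h3
  eff_iff.2 ⟨Z, a, Pr.hart hR hK hΛ bΛ (Gs.dsc_add hΛ h4 (Gs.dsc_prn hΛ a)) b⟩

theorem eff_num (hR : RES) (hK : FF K (n + 1)) (h : FT K n) (hβ : Num β) : Eff β := by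
  obtain ⟨Λ, Γ, a, b, c, d, e, f, g⟩ := h
  obtain ⟨Z, z1, z2⟩ := nv (D := β) hK a b c e d (by simpa [sub_eq_add_neg] using hβ.1.add f)
    (by simpa [sub_eq_add_neg, add_comm] using g.add_nef hβ.1) hβ.1.psef
  have k := (hβ.add (.of_prn z1)).2
  exact eff_iff.2 ⟨Z, z1, neg_nonpos.1 (Pr.neg hR hK (c := 0) a b k.car (by simpa using k)
    fun P hP => neg_nonpos.2 (z2 P hP))⟩

/-- **FTN.num** -/
theorem num (hR : RES) (hK : FF K (n + 1)) (h : FT K n) (hβ : Num β) : β ∈ Prn K := by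
  obtain ⟨Z, z1, z2⟩ := eff_iff.1 (eff_num hR hK h hβ)
  obtain ⟨Y, y1, y2⟩ := eff_iff.1 (eff_num hR hK h hβ.neg)
  have e := prn_zero hK (add_mem z1 y1) (by
    have := add_nonneg z2 y2
    rwa [add_add_add_comm, add_neg_cancel, zero_add] at this)
  have k : β + Z = 0 := le_antisymm (by
    rw [eq_neg_of_add_eq_zero_left e]
    simpa [neg_add_rev, add_comm] using neg_nonpos.2 y2) z2
  exact eq_neg_of_add_eq_zero_left k ▸ neg_mem z1

end Vale.Agent.P287D.Pc
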